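import Mathlib

namespace Vale.Agent.P348

open Complex

variable {R : Type*} [Ring R] [Algebra ℂ R]

/-- Two commuting `su(2)` triples `(x,y,z)` and `(a,b,c)`. -/
structure TwoSpins (x y z a b c : R) : Prop where
  hxy : x * y - y * x = I • z
  hyz : y * z - z * y = I • x
  hzx : z * x - x * z = I • y
  hab : a * b - b * a = I • c
  hbc : b * c - c * b = I • a
  hca : c * a - a * c = I • b
  xa : Commute a x
  xb : Commute b x
  xc : Commute c x
  ya : Commute a y
  yb : Commute b y
  yc : Commute c y
  za : Commute a z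
  zb : Commute b z
  zc : Commute c z

variable {x y z a b c : R}

lemma TwoSpins.comm_z (h : TwoSpins x y z a b c) :
    (x * a + y * b + z * c) * z - z * (x * a + y * b + z * c) = I • (x * b - y * a) := by
  have e1 : x * a * z = x * z * a := by rw [mul_assoc, h.za.eq, ← mul_assoc]
  have e2 : y * b * z = y * z * b := by rw [mul_assoc, h.zb.eq, ← mul_assoc]
  have e3 : z * c * z = z * z * c := by rw [mul_assoc, h.zc.eq, ← mul_assoc]
  have k1 : x * z * a - z * x * a = -(I • (y * a)) := by
    rw [← sub_mul, ← neg_sub, h.hzx, neg_mul, smul_mul_assoc]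
  have k2 : y * z * b - z * y * b = I • (x * b) := by
    rw [← sub_mul, h.hyz, smul_mul_assoc]
  calc (x * a + y * b + z * c) * z - z * (x * a + y * b + z * c)
      = (x * z * a - z * x * a) + (y * z * b - z * y * b) := by
        rw [add_mul, add_mul, e1, e2, e3, mul_add, mul_add, ← mul_assoc, ← mul_assoc, ← mul_assoc]
        abel
    _ = I • (x * b - y * a) := by rw [k1, k2, smul_sub]; abel

/-- cyclic rotation of the labels -/
lemma TwoSpins.rot (h : TwoSpins x y z a b c) : TwoSpins y z x b c a :=
  ⟨h.hyz, h.hzx, h.hxy, h.hbc, h.hca, h.hab, h.yb, h.yc, h.ya, h.zb, h.zc, h.za, h.xb, h.xc, h.xa⟩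

lemma TwoSpins.comm_x (h : TwoSpins x y z a b c) :
    (x * a + y * b + z * c) * x - x * (x * a + y * b + z * c) = I • (y * c - z * b) := by
  have := h.rot.comm_z
  have e : y * b + z * c + x * a = x * a + y * b + z * c := by abel
  rwa [e] at this

lemma TwoSpins.comm_y (h : TwoSpins x y z a b c) :
    (x * a + y * b + z * c) * y - y * (x * a + y * b + z * c) = I • (z * a - x * c) := by
  have := h.rot.rot.comm_z
  have e : z * c + x * a + y * b = x * a + y * b + z * c := by abel
  rwa [e] at this

lemma TwoSpins.sum_one (h : TwoSpins x y z a b c) :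
    x * (I • (y * c - z * b)) + y * (I • (z * a - x * c)) + z * (I • (x * b - y * a))
      = -(x * a + y * b + z * c) := by
  have k1 : (x * y - y * x) * c = I • (z * c) := by rw [h.hxy, smul_mul_assoc]
  have k2 : (y * z - z * y) * a = I • (x * a) := by rw [h.hyz, smul_mul_assoc]
  have k3 : (z * x - x * z) * b = I • (y * b) := by rw [h.hzx, smul_mul_assoc]
  calc x * (I • (y * c - z * b)) + y * (I • (z * a - x * c)) + z * (I • (x * b - y * a))
      = I • ((x * y - y * x) * c + (y * z - z * y) * a + (z * x - x * z) * b) := by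
        simp only [mul_smul_comm, mul_sub, sub_mul, smul_sub, smul_add, ← mul_assoc]
        abel
    _ = -(x * a + y * b + z * c) := by
        rw [k1, k2, k3, ← smul_add, ← smul_add, smul_smul, I_mul_I, neg_one_smul]
        abel

lemma TwoSpins.cross (h : TwoSpins x y z a b c) :
    (x * y) * (a * b) - (x * y) * (b * a) - (y * x) * (a * b) + (y * x) * (b * a) = -(z * c) := by
  have : (x * y - y * x) * (a * b - b * a) = -(z * c) := by
    rw [h.hxy, h.hab, smul_mul_smul_comm, I_mul_I, neg_one_smul]
  rw [← this, sub_mul, mul_sub, mul_sub]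
  abel

lemma TwoSpins.sq_z (h : TwoSpins x y z a b c) :
    (x * b - y * a) * (x * b - y * a)
      = (x * x) * (b * b) - (x * y) * (b * a) - (y * x) * (a * b) + (y * y) * (a * a) := by
  rw [sub_mul, mul_sub, mul_sub, h.xb.mul_mul_mul_comm, h.yb.mul_mul_mul_comm,
    h.xa.mul_mul_mul_comm, h.ya.mul_mul_mul_comm]
  abel

lemma TwoSpins.sq_u (h : TwoSpins x y z a b c) :
    (x * a + y * b + z * c) * (x * a + y * b + z * c)
      = (x * x) * (a * a) + (y * y) * (b * b) + (z * z) * (c * c)
        + ((x * y) * (a * b) + (y * x) * (b * a))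
        + ((y * z) * (b * c) + (z * y) * (c * b))
        + ((z * x) * (c * a) + (x * z) * (a * c)) := by
  simp only [add_mul, mul_add]
  rw [h.xa.mul_mul_mul_comm, h.ya.mul_mul_mul_comm, h.za.mul_mul_mul_comm,
    h.xb.mul_mul_mul_comm, h.yb.mul_mul_mul_comm, h.zb.mul_mul_mul_comm,
    h.xc.mul_mul_mul_comm, h.yc.mul_mul_mul_comm, h.zc.mul_mul_mul_comm]
  abel

/-- `|S × T|^2 = S^2 T^2 - (S·T)^2 - S·T`. -/
lemma TwoSpins.sum_two (h : TwoSpins x y z a b c) :
    (y * c - z * b) * (y * c - z * b) + (z * a - x * c) * (z * a - x * c)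
        + (x * b - y * a) * (x * b - y * a)
      = (x * x + y * y + z * z) * (a * a + b * b + c * c)
        - (x * a + y * b + z * c) * (x * a + y * b + z * c) - (x * a + y * b + z * c) := by
  have c1 := h.cross
  have c2 := h.rot.cross
  have c3 := h.rot.rot.cross
  rw [h.sq_z, h.rot.sq_z, h.rot.rot.sq_z, h.sq_u]
  simp only [add_mul, mul_add]
  have e1 : z * c = -((x * y) * (a * b) - (x * y) * (b * a) - (y * x) * (a * b) + (y * x) * (b * a)) := by
    rw [c1, neg_neg]
  have e2 : x * a = -((y * z) * (b * c) - (y * z) * (c * b) - (z * y) * (b * c) + (z * y) * (c * b)) := by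
    rw [c2, neg_neg]
  have e3 : y * b = -((z * x) * (c * a) - (z * x) * (a * c) - (x * z) * (c * a) + (x * z) * (a * c)) := by
    rw [c3, neg_neg]
  rw [e1, e2, e3]
  abel

end Vale.Agent.P348
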