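import Mathlib

/-!
Spin-one Heisenberg ring: definitions.
-/

namespace Vale.Agent.P348

open Matrix

/-- Configurations of `L` sites, each site carrying the index set `Fin 3` of the basis of `ℂ^3`;
`Conf L → ℂ` is the `L`-fold tensor power of `ℂ^3`. -/
abbrev Conf (L : ℕ) := Fin L → Fin 3

/-- The spin-one matrix `S^x` in the standard basis (eigenbasis of `S^z`, eigenvalues `1, 0, -1`). -/
noncomputable def Sx : Matrix (Fin 3) (Fin 3) ℂ :=
  ((1 : ℂ) / (Real.sqrt 2 : ℂ)) • !![0, 1, 0; 1, 0, 1; 0, 1, 0]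

/-- The spin-one matrix `S^y`. -/
noncomputable def Sy : Matrix (Fin 3) (Fin 3) ℂ :=
  ((1 : ℂ) / (Real.sqrt 2 : ℂ)) • !![0, -Complex.I, 0; Complex.I, 0, -Complex.I; 0, Complex.I, 0]

/-- The spin-one matrix `S^z`. -/
def Sz : Matrix (Fin 3) (Fin 3) ℂ := !![1, 0, 0; 0, 0, 0; 0, 0, -1]

/-- `site j A` acts as `A` on the `j`-th tensor factor and as the identity on the others. -/
def site {L : ℕ} (j : Fin L) (A : Matrix (Fin 3) (Fin 3) ℂ) : Matrix (Conf L) (Conf L) ℂ :=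
  Matrix.of fun σ τ => if ∀ i, i ≠ j → σ i = τ i then A (σ j) (τ j) else 0

/-- The bond term `q_j = S^x_j S^x_{j+1} + S^y_j S^y_{j+1} + S^z_j S^z_{j+1}`, indices mod `L`. -/
noncomputable def bond (L : ℕ) [NeZero L] (j : Fin L) : Matrix (Conf L) (Conf L) ℂ :=
  site j Sx * site (j + 1) Sx + site j Sy * site (j + 1) Sy + site j Sz * site (j + 1) Sz

/-- The spin-one antiferromagnetic Heisenberg Hamiltonian on the periodic ring of `L` sites. -/
noncomputable def heis (L : ℕ) [NeZero L] : Matrix (Conf L) (Conf L) ℂ :=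
  ∑ j : Fin L, bond L j

/-- `E` is an eigenvalue of `H_L`. -/
def IsEig (L : ℕ) [NeZero L] (E : ℝ) : Prop :=
  ∃ v : Conf L → ℂ, v ≠ 0 ∧ heis L *ᵥ v = (E : ℂ) • v

end Vale.Agent.P348
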