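import Vale.Agent.P348.Main

namespace Vale.Agent.P348

open Matrix

section general

variable {n : Type*} [Fintype n] [DecidableEq n]

lemma shift_formulas {H : Matrix n n ℂ} (hH : H.IsHermitian) (E0 : ℝ) (v : n → ℂ) :
    (star v ⬝ᵥ (H *ᵥ v - (E0 : ℂ) • v)).re = evr v H - E0 * nrm2 v ∧
    nrm2 (H *ᵥ v - (E0 : ℂ) • v) = nrm2 (H *ᵥ v) - 2 * E0 * evr v H + E0 ^ 2 * nrm2 v := by
  have hv : H *ᵥ v - (E0 : ℂ) • v = (H - (E0 : ℂ) • 1) *ᵥ v := by
    rw [Matrix.sub_mulVec, Matrix.smul_mulVec, Matrix.one_mulVec]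
  have hherm : (H - (E0 : ℂ) • (1 : Matrix n n ℂ))ᴴ = H - (E0 : ℂ) • 1 := by
    rw [Matrix.conjTranspose_sub, hH.eq, Matrix.conjTranspose_smul, Matrix.conjTranspose_one]
    simp
  constructor
  · rw [hv]
    change evr v (H - (E0 : ℂ) • 1) = _
    rw [evr_sub, evr_smul, evr_one]
  · rw [hv, ← evr_conj_mul_self, hherm]
    have e : (H - (E0 : ℂ) • (1 : Matrix n n ℂ)) * (H - (E0 : ℂ) • 1)
        = Hᴴ * H - ((E0 : ℂ) • H + (E0 : ℂ) • H) + (E0 : ℂ) • ((E0 : ℂ) • 1) := by
      rw [hH.eq]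
      simp only [sub_mul, mul_sub, smul_mul_assoc, mul_smul_comm, one_mul, mul_one, smul_sub]
      abel
    rw [e, evr_add, evr_sub, evr_add, evr_smul, evr_smul, evr_smul, evr_one, evr_conj_mul_self]
    ring

lemma gap_ineq {H : Matrix n n ℂ} (hH : H.IsHermitian) {E0 γ : ℝ}
    (hspec : ∀ i, hH.eigenvalues i = E0 ∨ E0 + γ ≤ hH.eigenvalues i) (hγ : 0 ≤ γ) (v : n → ℂ) :
    γ * (star v ⬝ᵥ (H *ᵥ v - (E0 : ℂ) • v)).re ≤ nrm2 (H *ᵥ v - (E0 : ℂ) • v) := by
  obtain ⟨c, hc0, h0, h1, h2⟩ := spectral_weights hH v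
  obtain ⟨f1, f2⟩ := shift_formulas hH E0 v
  rw [f1, f2, h0, h1, h2]
  have : ∑ i, hH.eigenvalues i ^ 2 * c i - 2 * E0 * ∑ i, hH.eigenvalues i * c i
        + E0 ^ 2 * ∑ i, c i - γ * (∑ i, hH.eigenvalues i * c i - E0 * ∑ i, c i)
      = ∑ i, (hH.eigenvalues i - E0) * (hH.eigenvalues i - E0 - γ) * c i := by
    simp only [Finset.mul_sum, ← Finset.sum_sub_distrib, ← Finset.sum_add_distrib]
    refine Finset.sum_congr rfl fun i _ => ?_
    ring
  have hnn : 0 ≤ ∑ i, (hH.eigenvalues i - E0) * (hH.eigenvalues i - E0 - γ) * c i := by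
    refine Finset.sum_nonneg fun i _ => ?_
    refine mul_nonneg ?_ (hc0 i)
    rcases hspec i with h | h
    · rw [h]; simp
    · exact mul_nonneg (by linarith) (by linarith)
  linarith

lemma rayleigh_lower {H : Matrix n n ℂ} (hH : H.IsHermitian) {E0 : ℝ}
    (hspec : ∀ i, E0 ≤ hH.eigenvalues i) (v : n → ℂ) : E0 * nrm2 v ≤ evr v H := by
  obtain ⟨c, hc0, h0, h1, -⟩ := spectral_weights hH v
  rw [h0, h1, Finset.mul_sum]
  exact Finset.sum_le_sum fun i _ => mul_le_mul_of_nonneg_right (hspec i) (hc0 i)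

lemma rayleigh_eq {H : Matrix n n ℂ} (hH : H.IsHermitian) {E0 : ℝ}
    (hspec : ∀ i, hH.eigenvalues i = E0) (v : n → ℂ) : evr v H = E0 * nrm2 v := by
  obtain ⟨c, -, h0, h1, -⟩ := spectral_weights hH v
  rw [h0, h1, Finset.mul_sum]
  exact Finset.sum_congr rfl fun i _ => by rw [hspec i]

omit [DecidableEq n] in
lemma nrm2_pos {v : n → ℂ} (hv : v ≠ 0) : 0 < nrm2 v := by
  obtain ⟨i, hi⟩ := Function.ne_iff.mp hv
  have : 0 < ‖v i‖ ^ 2 := by
    have : 0 < ‖v i‖ := norm_pos_iff.mpr hi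
    positivity
  exact lt_of_lt_of_le this
    (Finset.single_le_sum (f := fun i => ‖v i‖ ^ 2) (fun _ _ => by positivity) (Finset.mem_univ i))

end general

variable {L : ℕ} [NeZero L]

lemma eig_of_eigenvalues (hL : 3 ≤ L) (i : Conf L) : IsEig L ((herm_heis hL).eigenvalues i) := by
  refine ⟨((herm_heis hL).eigenvectorBasis i).ofLp, ?_, ?_⟩
  · exact (WithLp.ofLp_eq_zero 2).ne.2 ((herm_heis hL).eigenvectorBasis.orthonormal.ne_zero i)
  · rw [(herm_heis hL).mulVec_eigenvectorBasis i]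
    funext σ
    simp

/-- diagonal entries of a product of operators on two different sites -/
lemma site_mul_site_diag {j k : Fin L} (hjk : j ≠ k) (A B : Matrix (Fin 3) (Fin 3) ℂ)
    (σ : Conf L) : (site j A * site k B) σ σ = A (σ j) (σ j) * B (σ k) (σ k) := by
  rw [Matrix.mul_apply, Finset.sum_eq_single σ]
  · simp [site]
  · intro ρ _ hρ
    simp only [site, Matrix.of_apply]
    by_cases h1 : ∀ i, i ≠ j → σ i = ρ i
    · by_cases h2 : ∀ i, i ≠ k → ρ i = σ i
      · exfalso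
        apply hρ
        funext i
        by_cases hi : i = j
        · exact h2 i (by rw [hi]; exact hjk)
        · exact (h1 i hi).symm
      · rw [if_neg h2, mul_zero]
    · rw [if_neg h1, zero_mul]
  · intro h; exact absurd (Finset.mem_univ _) h

/-- the Neel configuration -/
def neel (L : ℕ) : Conf L := fun i => if i.val % 2 = 0 then 0 else 2

lemma bond_neel (hL : 3 ≤ L) (hev : Even L) (j : Fin L) : bond L j (neel L) (neel L) = -1 := by
  unfold bond
  rw [Matrix.add_apply, Matrix.add_apply, site_mul_site_diag (succ_ne hL j).symm,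
    site_mul_site_diag (succ_ne hL j).symm, site_mul_site_diag (succ_ne hL j).symm]
  have hval : (j + 1).val % 2 = (j.val + 1) % 2 := by
    rw [Fin.val_add, Fin.val_one', Nat.mod_eq_of_lt (by omega : 1 < L)]
    exact Nat.mod_mod_of_dvd _ hev.two_dvd
  by_cases hj : j.val % 2 = 0
  · have h1 : neel L j = 0 := by simp [neel, hj]
    have h2 : neel L (j + 1) = 2 := by
      have : ¬ (j + 1).val % 2 = 0 := by rw [hval]; omega
      simp [neel, this]
    rw [h1, h2]
    simp [Sx, Sy, Sz]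
  · have h1 : neel L j = 2 := by simp [neel, hj]
    have h2 : neel L (j + 1) = 0 := by
      have : (j + 1).val % 2 = 0 := by rw [hval]; omega
      simp [neel, this]
    rw [h1, h2]
    simp [Sx, Sy, Sz]

lemma heis_neel (hL : 3 ≤ L) (hev : Even L) :
    evr (Pi.single (neel L) (1 : ℂ)) (heis L) = -(L : ℝ) := by
  have h1 : star (Pi.single (neel L) (1 : ℂ) : Conf L → ℂ) ⬝ᵥ (heis L *ᵥ Pi.single (neel L) 1)
      = heis L (neel L) (neel L) := by
    rw [Matrix.mulVec_single_one]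
    have : star (Pi.single (neel L) (1 : ℂ) : Conf L → ℂ) = Pi.single (neel L) 1 := by
      funext σ
      by_cases h : σ = neel L
      · subst h; simp
      · simp [Pi.single_eq_of_ne h]
    rw [this, single_one_dotProduct]
    rfl
  rw [evr, h1]
  unfold heis
  rw [Matrix.sum_apply]
  simp [bond_neel hL hev]

lemma nrm2_single (σ : Conf L) : nrm2 (Pi.single σ (1 : ℂ) : Conf L → ℂ) = 1 := by
  unfold nrm2
  rw [Finset.sum_eq_single σ]
  · simp
  · intro τ _ h
    simp [Pi.single_eq_of_ne h]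
  · intro h; exact absurd (Finset.mem_univ _) h

/-- Main statement: the ring of even length `L ≥ 4` has an eigenvalue in `(E0, E0 + 7]`. -/
theorem gap_le_seven (hL : 4 ≤ L) (hev : Even L) (E0 : ℝ) (hE0 : IsLeast {E : ℝ | IsEig L E} E0) :
    ∃ E1 : ℝ, IsEig L E1 ∧ E0 < E1 ∧ E1 ≤ E0 + 7 := by
  have hL3 : 3 ≤ L := by omega
  set hH := herm_heis hL3 with hHdef
  obtain ⟨⟨ψ, hψ0, hψ⟩, hleast⟩ := hE0
  have hlow : ∀ i, E0 ≤ hH.eigenvalues i := fun i => hleast (eig_of_eigenvalues hL3 i)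
  have hN : 0 < nrm2 ψ := nrm2_pos hψ0
  have hLpos : (0 : ℝ) < L := by exact_mod_cast (by omega : 0 < L)
  -- the Neel bound
  have hneel : E0 ≤ -(L : ℝ) := by
    have := rayleigh_lower hH hlow (Pi.single (neel L) (1 : ℂ))
    rw [nrm2_single, heis_neel hL3 hev] at this
    linarith
  -- expectation of H in ψ
  have hEψ : evr ψ (heis L) = E0 * nrm2 ψ := by
    rw [evr, hψ, dotProduct_smul, star_dot_self]
    simp
  have hsum : ∑ j : Fin L, evr ψ (bond L j + bond L (j - 1)) = 2 * (E0 * nrm2 ψ) := by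
    rw [← evr_sum, sum_bonds_at, evr_two_smul, hEψ]
  -- summed inequality for any admissible γ
  have hmain : ∀ γ : ℝ, 0 ≤ γ → (∀ i, hH.eigenvalues i = E0 ∨ E0 + γ ≤ hH.eigenvalues i) →
      γ ≤ 7 := by
    intro γ hγ hspec
    have hs := Finset.sum_le_sum fun (j : Fin L) (_ : j ∈ Finset.univ) =>
      site_ineq hL3 hψ (gap_ineq hH hspec hγ) j
    have hl : ∑ j : Fin L, γ * (- evr ψ (bond L j + bond L (j - 1)))
        = γ * (-(2 * (E0 * nrm2 ψ))) := by
      rw [← Finset.mul_sum, Finset.sum_neg_distrib, hsum]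
    have hr : ∑ j : Fin L, (20 * nrm2 ψ + 3 * evr ψ (bond L j + bond L (j - 1)))
        = L * (20 * nrm2 ψ) + 3 * (2 * (E0 * nrm2 ψ)) := by
      rw [Finset.sum_add_distrib, ← Finset.mul_sum (f := fun j => evr ψ (bond L j + bond L (j - 1))),
        hsum]
      simp
    rw [hl, hr] at hs
    have h1 : (2 * γ + 6) * (-E0) ≤ 20 * L := by
      have h0 : ((2 * γ + 6) * (-E0) - 20 * L) * nrm2 ψ ≤ 0 := by nlinarith
      by_contra hcon
      have hcon' := not_le.mp hcon
      have : 0 < ((2 * γ + 6) * (-E0) - 20 * L) * nrm2 ψ := mul_pos (by linarith) hN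
      linarith
    have h2 : (2 * γ + 6) * L ≤ (2 * γ + 6) * (-E0) :=
      mul_le_mul_of_nonneg_left (by linarith) (by linarith)
    have h3 : (2 * γ + 6) * L ≤ 20 * L := le_trans h2 h1
    have h4 : 2 * γ + 6 ≤ 20 := le_of_mul_le_mul_right h3 hLpos
    linarith
  -- there is an eigenvalue above E0
  have hex : ∃ i, E0 < hH.eigenvalues i := by
    by_contra hcon
    have hall : ∀ i, hH.eigenvalues i = E0 := fun i =>
      le_antisymm (not_lt.mp fun h => hcon ⟨i, h⟩) (hlow i)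
    have := hmain 8 (by norm_num) fun i => Or.inl (hall i)
    norm_num at this
  classical
  set s : Finset (Conf L) := Finset.univ.filter fun i => E0 < hH.eigenvalues i with hs
  have hsne : s.Nonempty := by
    obtain ⟨i, hi⟩ := hex
    exact ⟨i, by simp [hs, hi]⟩
  obtain ⟨i0, hi0, hmin⟩ := Finset.exists_min_image s hH.eigenvalues hsne
  have hi0' : E0 < hH.eigenvalues i0 := by simpa [hs] using hi0
  refine ⟨hH.eigenvalues i0, eig_of_eigenvalues hL3 i0, hi0', ?_⟩
  have := hmain (hH.eigenvalues i0 - E0) (by linarith) fun i => by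
    rcases eq_or_lt_of_le (hlow i) with h | h
    · exact Or.inl h.symm
    · right
      have := hmin i (by simp [hs, h])
      linarith
  linarith

end Vale.Agent.P348

namespace Vale.Agent.P348

open Matrix

variable {L : ℕ} [NeZero L]

/-- every eigenvalue occurs in the list of eigenvalues given by the spectral theorem -/
lemma eig_mem_eigenvalues (hL : 3 ≤ L) {E : ℝ} (hE : IsEig L E) :
    ∃ i, (herm_heis hL).eigenvalues i = E := by
  obtain ⟨v, hv0, hv⟩ := hE
  set hH := herm_heis hL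
  obtain ⟨c, hc0, h0, h1, h2⟩ := spectral_weights hH v
  obtain ⟨-, f2⟩ := shift_formulas hH E v
  have hz : nrm2 (heis L *ᵥ v - (E : ℂ) • v) = 0 := by
    rw [hv, sub_self]; simp [nrm2]
  rw [hz, h0, h1, h2] at f2
  have hsum : ∑ i, (hH.eigenvalues i - E) ^ 2 * c i = 0 := by
    have : ∑ i, (hH.eigenvalues i - E) ^ 2 * c i
        = ∑ i, hH.eigenvalues i ^ 2 * c i - 2 * E * ∑ i, hH.eigenvalues i * c i
          + E ^ 2 * ∑ i, c i := by
      simp only [Finset.mul_sum, ← Finset.sum_sub_distrib, ← Finset.sum_add_distrib]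
      refine Finset.sum_congr rfl fun i _ => ?_
      ring
    rw [this, ← f2]
  have hpos : 0 < ∑ i, c i := by rw [← h0]; exact nrm2_pos hv0
  obtain ⟨i, -, hi⟩ := Finset.exists_lt_of_sum_lt (s := Finset.univ) (f := fun _ => (0 : ℝ))
    (g := c) (by simpa using hpos)
  refine ⟨i, ?_⟩
  have hterm := (Finset.sum_eq_zero_iff_of_nonneg
    (fun i _ => mul_nonneg (sq_nonneg _) (hc0 i))).mp hsum i (Finset.mem_univ i)
  have : (hH.eigenvalues i - E) ^ 2 = 0 := by
    rcases mul_eq_zero.mp hterm with h | h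
    · exact h
    · exact absurd h (ne_of_gt hi)
  have := pow_eq_zero_iff (two_ne_zero) |>.mp this
  linarith

lemma exists_least_eig (hL : 3 ≤ L) : ∃ E0 : ℝ, IsLeast {E : ℝ | IsEig L E} E0 := by
  classical
  obtain ⟨i0, -, hmin⟩ := Finset.exists_min_image (Finset.univ : Finset (Conf L))
    (herm_heis hL).eigenvalues ⟨fun _ => 0, Finset.mem_univ _⟩
  refine ⟨(herm_heis hL).eigenvalues i0, eig_of_eigenvalues hL i0, ?_⟩
  intro E hE
  obtain ⟨i, rfl⟩ := eig_mem_eigenvalues hL hE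
  exact hmin i (Finset.mem_univ i)

end Vale.Agent.P348
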