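import Vale.Agent.P348.Ring

namespace Vale.Agent.P348

open Matrix

section general

variable {n : Type*} [Fintype n] [DecidableEq n]

omit [DecidableEq n] in
lemma evr_sq_nonneg (ψ : n → ℂ) {M : Matrix n n ℂ} (hM : Mᴴ = M) : 0 ≤ evr ψ (M * M) := by
  have := evr_conj_mul_self ψ M
  rw [hM] at this
  rw [this]
  exact nrm2_nonneg _

omit [DecidableEq n] in
lemma evr_two_smul (ψ : n → ℂ) (M : Matrix n n ℂ) : evr ψ ((2 : ℂ) • M) = 2 * evr ψ M := by
  have := evr_smul ψ 2 M
  simpa using this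

/-- one trial operator `A` with `[H, A] = i C` -/
lemma trial_ineq {H A C : Matrix n n ℂ} {ψ : n → ℂ} {E0 γ : ℝ}
    (hψ : H *ᵥ ψ = (E0 : ℂ) • ψ) (hA : Aᴴ = A) (hC : Cᴴ = C)
    (hcomm : H * A - A * H = Complex.I • C)
    (hgap : ∀ v : n → ℂ, γ * (star v ⬝ᵥ (H *ᵥ v - (E0 : ℂ) • v)).re
      ≤ nrm2 (H *ᵥ v - (E0 : ℂ) • v)) :
    γ * evr ψ (A * (Complex.I • C)) ≤ evr ψ (C * C) := by
  have hr : H *ᵥ (A *ᵥ ψ) - (E0 : ℂ) • (A *ᵥ ψ) = (Complex.I • C) *ᵥ ψ := by
    rw [← hcomm, Matrix.sub_mulVec, ← Matrix.mulVec_mulVec, ← Matrix.mulVec_mulVec, hψ,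
      Matrix.mulVec_smul]
  have h := hgap (A *ᵥ ψ)
  rw [hr] at h
  have e1 : (star (A *ᵥ ψ) ⬝ᵥ ((Complex.I • C) *ᵥ ψ)).re = evr ψ (A * (Complex.I • C)) := by
    rw [← evr_conj_mul, hA]
  have e2 : nrm2 ((Complex.I • C) *ᵥ ψ) = evr ψ (C * C) := by
    rw [← evr_conj_mul_self, Matrix.conjTranspose_smul, hC, smul_mul_smul_comm]
    simp
  rwa [e1, e2] at h

omit [DecidableEq n] in
lemma evr_add_sq_le (ψ : n → ℂ) {P M : Matrix n n ℂ} (hP : Pᴴ = P) (hM : Mᴴ = M) :
    evr ψ ((P + M) * (P + M)) ≤ 2 * evr ψ (P * P) + 2 * evr ψ (M * M) := by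
  have h0 : 0 ≤ evr ψ ((P - M) * (P - M)) :=
    evr_sq_nonneg ψ (by rw [Matrix.conjTranspose_sub, hP, hM])
  have e : (P + M) * (P + M) + (P - M) * (P - M) = (P * P + P * P) + (M * M + M * M) := by
    simp only [add_mul, mul_add, sub_mul, mul_sub]; abel
  have := congrArg (evr ψ) e
  simp only [evr_add] at this
  linarith

lemma evr_shift_sq (ψ : n → ℂ) {u : Matrix n n ℂ} (hu : uᴴ = u) :
    0 ≤ evr ψ (u * u) + 4 * evr ψ u + 4 * nrm2 ψ := by
  have h0 : 0 ≤ evr ψ ((u + (2 : ℂ) • 1) * (u + (2 : ℂ) • 1)) := by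
    apply evr_sq_nonneg
    rw [Matrix.conjTranspose_add, hu, Matrix.conjTranspose_smul, Matrix.conjTranspose_one]
    simp
  have e : (u + (2 : ℂ) • (1 : Matrix n n ℂ)) * (u + (2 : ℂ) • 1)
      = u * u + ((2 : ℂ) • u + (2 : ℂ) • u) + ((2 : ℂ) • ((2 : ℂ) • 1)) := by
    simp only [add_mul, mul_add, smul_mul_assoc, mul_smul_comm, one_mul, mul_one, smul_add]
    abel
  rw [e] at h0
  simp only [evr_add, evr_two_smul, evr_one] at h0
  linarith

end general

variable {L : ℕ} [NeZero L]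

/-- the inequality obtained from the three trial operators at the site `j` -/
lemma site_ineq (hL : 3 ≤ L) {ψ : Conf L → ℂ} {E0 γ : ℝ}
    (hψ : heis L *ᵥ ψ = (E0 : ℂ) • ψ)
    (hgap : ∀ v : Conf L → ℂ, γ * (star v ⬝ᵥ (heis L *ᵥ v - (E0 : ℂ) • v)).re
      ≤ nrm2 (heis L *ᵥ v - (E0 : ℂ) • v)) (j : Fin L) :
    γ * (- evr ψ (bond L j + bond L (j - 1)))
      ≤ 20 * nrm2 ψ + 3 * evr ψ (bond L j + bond L (j - 1)) := by
  have T := twoSpins hL j
  set x := site j Sx with hx
  set y := site j Sy with hy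
  set z := site j Sz with hz
  set a := site (j + 1) Sx + site (j - 1) Sx with ha
  set b := site (j + 1) Sy + site (j - 1) Sy with hb
  set c := site (j + 1) Sz + site (j - 1) Sz with hc
  have hu : bond L j + bond L (j - 1) = x * a + y * b + z * c := bonds_at hL j
  set u := bond L j + bond L (j - 1) with hudef
  have Hx : xᴴ = x := herm_site_x j
  have Hy : yᴴ = y := herm_site_y j
  have Hz : zᴴ = z := herm_site_z j
  have Ha : aᴴ = a := by rw [ha, Matrix.conjTranspose_add, herm_site_x, herm_site_x]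
  have Hb : bᴴ = b := by rw [hb, Matrix.conjTranspose_add, herm_site_y, herm_site_y]
  have Hc : cᴴ = c := by rw [hc, Matrix.conjTranspose_add, herm_site_z, herm_site_z]
  have Hu : uᴴ = u := by
    rw [hudef, Matrix.conjTranspose_add, herm_bond hL, herm_bond hL]
  have HCx : (y * c - z * b)ᴴ = y * c - z * b := by
    rw [Matrix.conjTranspose_sub, herm_mul_of_commute Hy Hc T.yc, herm_mul_of_commute Hz Hb T.zb]
  have HCy : (z * a - x * c)ᴴ = z * a - x * c := by
    rw [Matrix.conjTranspose_sub, herm_mul_of_commute Hz Ha T.za, herm_mul_of_commute Hx Hc T.xc]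
  have HCz : (x * b - y * a)ᴴ = x * b - y * a := by
    rw [Matrix.conjTranspose_sub, herm_mul_of_commute Hx Hb T.xb, herm_mul_of_commute Hy Ha T.ya]
  have cx : heis L * x - x * heis L = Complex.I • (y * c - z * b) := by
    rw [hx, heis_comm_site hL j Sx, ← hudef, ← hx, hu]; exact T.comm_x
  have cy : heis L * y - y * heis L = Complex.I • (z * a - x * c) := by
    rw [hy, heis_comm_site hL j Sy, ← hudef, ← hy, hu]; exact T.comm_y
  have cz : heis L * z - z * heis L = Complex.I • (x * b - y * a) := by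
    rw [hz, heis_comm_site hL j Sz, ← hudef, ← hz, hu]; exact T.comm_z
  have ix := trial_ineq hψ Hx HCx cx hgap
  have iy := trial_ineq hψ Hy HCy cy hgap
  have iz := trial_ineq hψ Hz HCz cz hgap
  have s1 := congrArg (evr ψ) T.sum_one
  have s2 := congrArg (evr ψ) T.sum_two
  rw [← hu] at s1 s2
  simp only [evr_add, evr_neg, evr_sub] at s1 s2
  -- Casimir at site j
  have cas : x * x + y * y + z * z = (2 : ℂ) • (1 : Matrix (Conf L) (Conf L) ℂ) := site_casimir j
  have e3 : evr ψ ((x * x + y * y + z * z) * (a * a + b * b + c * c))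
      = 2 * (evr ψ (a * a) + evr ψ (b * b) + evr ψ (c * c)) := by
    rw [cas, smul_mul_assoc, one_mul, evr_two_smul, evr_add, evr_add]
  have ba := evr_add_sq_le ψ (herm_site_x (j + 1)) (herm_site_x (j - 1))
  have bb := evr_add_sq_le ψ (herm_site_y (j + 1)) (herm_site_y (j - 1))
  have bc := evr_add_sq_le ψ (herm_site_z (j + 1)) (herm_site_z (j - 1))
  rw [← ha] at ba
  rw [← hb] at bb
  rw [← hc] at bc
  have casp := congrArg (evr ψ) (site_casimir (j + 1))
  have casm := congrArg (evr ψ) (site_casimir (j - 1))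
  simp only [evr_add, evr_two_smul, evr_one] at casp casm
  have sh := evr_shift_sq ψ Hu
  rw [e3] at s2
  have key : γ * (- evr ψ u) = γ * evr ψ (x * (Complex.I • (y * c - z * b)))
      + γ * evr ψ (y * (Complex.I • (z * a - x * c)))
      + γ * evr ψ (z * (Complex.I • (x * b - y * a))) := by
    rw [← s1]; ring
  rw [key]
  linarith [ix, iy, iz, s2, ba, bb, bc, casp, casm, sh]

end Vale.Agent.P348
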