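import Mathlib

namespace Vale.Agent.P348

open Matrix

variable {n : Type*} [Fintype n] [DecidableEq n]

/-- squared Euclidean norm -/
noncomputable def nrm2 (v : n → ℂ) : ℝ := ∑ i, ‖v i‖ ^ 2

omit [DecidableEq n] in
lemma nrm2_nonneg (v : n → ℂ) : 0 ≤ nrm2 v := Finset.sum_nonneg fun _ _ => by positivity

omit [DecidableEq n] in
lemma star_dot_self (v : n → ℂ) : star v ⬝ᵥ v = (nrm2 v : ℂ) := by
  simp only [dotProduct, nrm2, Pi.star_apply, Complex.ofReal_sum]
  refine Finset.sum_congr rfl fun i _ => ?_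
  rw [Complex.star_def, Complex.conj_mul']
  norm_cast

omit [DecidableEq n] in
lemma ip_mulVec (M : Matrix n n ℂ) (v u : n → ℂ) :
    star (M *ᵥ v) ⬝ᵥ u = star v ⬝ᵥ (Mᴴ *ᵥ u) := by
  rw [Matrix.star_mulVec, ← Matrix.dotProduct_mulVec]

/-- real part of the expectation of `M` in `ψ` -/
noncomputable def evr (ψ : n → ℂ) (M : Matrix n n ℂ) : ℝ := (star ψ ⬝ᵥ (M *ᵥ ψ)).re

omit [DecidableEq n] in
lemma evr_add (ψ : n → ℂ) (M N : Matrix n n ℂ) : evr ψ (M + N) = evr ψ M + evr ψ N := by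
  simp [evr, Matrix.add_mulVec, dotProduct_add]

omit [DecidableEq n] in
lemma evr_sub (ψ : n → ℂ) (M N : Matrix n n ℂ) : evr ψ (M - N) = evr ψ M - evr ψ N := by
  simp [evr, Matrix.sub_mulVec, dotProduct_sub]

omit [DecidableEq n] in
lemma evr_neg (ψ : n → ℂ) (M : Matrix n n ℂ) : evr ψ (-M) = - evr ψ M := by
  simp [evr, Matrix.neg_mulVec, dotProduct_neg]

omit [DecidableEq n] in
lemma evr_smul (ψ : n → ℂ) (r : ℝ) (M : Matrix n n ℂ) : evr ψ ((r : ℂ) • M) = r * evr ψ M := by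
  simp [evr, Matrix.smul_mulVec, dotProduct_smul]

omit [DecidableEq n] in
lemma evr_sum {ι : Type*} (s : Finset ι) (ψ : n → ℂ) (M : ι → Matrix n n ℂ) :
    evr ψ (∑ i ∈ s, M i) = ∑ i ∈ s, evr ψ (M i) := by
  classical
  induction s using Finset.induction_on with
  | empty => simp [evr]
  | insert a s ha ih => rw [Finset.sum_insert ha, Finset.sum_insert ha, evr_add, ih]

lemma evr_one (ψ : n → ℂ) : evr ψ 1 = nrm2 ψ := by
  simp [evr, star_dot_self]

omit [DecidableEq n] in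
lemma evr_conj_mul (ψ : n → ℂ) (M N : Matrix n n ℂ) :
    evr ψ (Mᴴ * N) = (star (M *ᵥ ψ) ⬝ᵥ (N *ᵥ ψ)).re := by
  rw [evr, ip_mulVec, Matrix.mulVec_mulVec]

omit [DecidableEq n] in
lemma evr_conj_mul_self (ψ : n → ℂ) (M : Matrix n n ℂ) :
    evr ψ (Mᴴ * M) = nrm2 (M *ᵥ ψ) := by
  rw [evr_conj_mul, star_dot_self, Complex.ofReal_re]

/-- Spectral weights of a vector with respect to a Hermitian matrix. -/
lemma spectral_weights {A : Matrix n n ℂ} (hA : A.IsHermitian) (v : n → ℂ) :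
    ∃ c : n → ℝ, (∀ i, 0 ≤ c i) ∧ nrm2 v = ∑ i, c i ∧
      evr v A = ∑ i, hA.eigenvalues i * c i ∧
      nrm2 (A *ᵥ v) = ∑ i, (hA.eigenvalues i) ^ 2 * c i := by
  set U : Matrix n n ℂ := (hA.eigenvectorUnitary : Matrix n n ℂ) with hU
  set D : Matrix n n ℂ := diagonal (RCLike.ofReal ∘ hA.eigenvalues) with hD
  have hspec : A = U * D * Uᴴ := by
    have := hA.spectral_theorem
    rw [Unitary.conjStarAlgAut_apply] at this
    exact this
  have hUU : Uᴴ * U = 1 := by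
    have := Unitary.coe_star_mul_self hA.eigenvectorUnitary
    exact this
  have hUU' : U * Uᴴ = 1 := by
    have := Unitary.coe_mul_star_self hA.eigenvectorUnitary
    exact this
  set w : n → ℂ := Uᴴ *ᵥ v with hw
  have hdiag : ∀ (f : n → ℝ), (star w ⬝ᵥ (diagonal (fun i => ((f i : ℝ) : ℂ)) *ᵥ w)).re
      = ∑ i, f i * ‖w i‖ ^ 2 := by
    intro f
    simp only [dotProduct, Matrix.mulVec_diagonal, Pi.star_apply, Complex.re_sum]
    refine Finset.sum_congr rfl fun i _ => ?_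
    have : star (w i) * ((f i : ℂ) * w i) = ((f i * ‖w i‖ ^ 2 : ℝ) : ℂ) := by
      rw [Complex.star_def]
      have h1 : (starRingEnd ℂ) (w i) * w i = ((‖w i‖ ^ 2 : ℝ) : ℂ) := by
        rw [Complex.conj_mul']; norm_cast
      calc (starRingEnd ℂ) (w i) * ((f i : ℂ) * w i)
          = (f i : ℂ) * ((starRingEnd ℂ) (w i) * w i) := by ring
        _ = _ := by rw [h1]; push_cast; ring
    rw [this, Complex.ofReal_re]
  refine ⟨fun i => ‖w i‖ ^ 2, fun i => by positivity, ?_, ?_, ?_⟩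
  · have h1 : nrm2 w = nrm2 v := by
      have : (nrm2 w : ℂ) = (nrm2 v : ℂ) := by
        rw [← star_dot_self, ← star_dot_self, hw, ip_mulVec, Matrix.conjTranspose_conjTranspose,
          Matrix.mulVec_mulVec, hUU', Matrix.one_mulVec]
      exact_mod_cast this
    rw [← h1]; rfl
  · have : star v ⬝ᵥ (A *ᵥ v) = star w ⬝ᵥ (D *ᵥ w) := by
      rw [hw, ip_mulVec, Matrix.conjTranspose_conjTranspose, Matrix.mulVec_mulVec,
        Matrix.mulVec_mulVec, ← hspec]
    rw [evr, this]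
    exact hdiag hA.eigenvalues
  · have hAA : Aᴴ * A = U * (D * D) * Uᴴ := by
      rw [hA.eq, hspec]
      calc U * D * Uᴴ * (U * D * Uᴴ) = U * D * (Uᴴ * U) * D * Uᴴ := by
            simp only [Matrix.mul_assoc]
        _ = U * (D * D) * Uᴴ := by rw [hUU]; simp only [Matrix.mul_assoc, Matrix.mul_one]
    have hDD : D * D = diagonal (fun i => (((hA.eigenvalues i) ^ 2 : ℝ) : ℂ)) := by
      rw [hD, Matrix.diagonal_mul_diagonal]
      congr 1
      funext i
      simp [pow_two]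
    have : star v ⬝ᵥ ((Aᴴ * A) *ᵥ v) = star w ⬝ᵥ ((D * D) *ᵥ w) := by
      rw [hw, ip_mulVec, Matrix.conjTranspose_conjTranspose, Matrix.mulVec_mulVec,
        Matrix.mulVec_mulVec, hAA]
    rw [← evr_conj_mul_self, evr, this, hDD]
    exact hdiag fun i => (hA.eigenvalues i) ^ 2

end Vale.Agent.P348
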