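import Vale.Agent.P348.Site
import Vale.Agent.P348.Alg
import Vale.Agent.P348.Spec

namespace Vale.Agent.P348

open Matrix

variable {L : ℕ} [NeZero L]

lemma fin_one_ne_zero (hL : 3 ≤ L) : (1 : Fin L) ≠ 0 := by
  intro h
  have := congrArg Fin.val h
  rw [Fin.val_one', Fin.val_zero, Nat.mod_eq_of_lt (by omega)] at this
  omega

lemma fin_two_ne_zero (hL : 3 ≤ L) : (1 : Fin L) + 1 ≠ 0 := by
  intro h
  have := congrArg Fin.val h
  rw [Fin.val_add, Fin.val_one', Fin.val_zero, Nat.mod_eq_of_lt (by omega : 1 < L),
    Nat.mod_eq_of_lt (by omega)] at this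
  omega

lemma succ_ne (hL : 3 ≤ L) (j : Fin L) : j + 1 ≠ j := by
  intro h
  exact fin_one_ne_zero hL (by simpa using h)

lemma pred_ne (hL : 3 ≤ L) (j : Fin L) : j - 1 ≠ j := by
  intro h
  apply fin_one_ne_zero hL
  have : j - 1 = j - 0 := by simpa using h
  exact sub_right_injective this

lemma succ_ne_pred (hL : 3 ≤ L) (j : Fin L) : j + 1 ≠ j - 1 := by
  intro h
  apply fin_two_ne_zero hL
  have h2 : j + 1 + 1 = j := by rw [h, sub_add_cancel]
  have h3 : j + (1 + 1) = j + 0 := by rw [← add_assoc, h2, add_zero]
  exact add_left_cancel h3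

/-- su(2) relations on one site -/
lemma site_xy (j : Fin L) :
    site j Sx * site j Sy - site j Sy * site j Sx = Complex.I • site j Sz := by
  rw [site_mul, site_mul, ← site_sub, comm_xy, site_smul]

lemma site_yz (j : Fin L) :
    site j Sy * site j Sz - site j Sz * site j Sy = Complex.I • site j Sx := by
  rw [site_mul, site_mul, ← site_sub, comm_yz, site_smul]

lemma site_zx (j : Fin L) :
    site j Sz * site j Sx - site j Sx * site j Sz = Complex.I • site j Sy := by
  rw [site_mul, site_mul, ← site_sub, comm_zx, site_smul]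

lemma site_casimir (j : Fin L) :
    site j Sx * site j Sx + site j Sy * site j Sy + site j Sz * site j Sz
      = (2 : ℂ) • (1 : Matrix (Conf L) (Conf L) ℂ) := by
  rw [site_mul, site_mul, site_mul, ← site_add, ← site_add, casimir, site_smul, site_one]

lemma sum_comm_rel {p m : Fin L} (hpm : p ≠ m) (A B C : Matrix (Fin 3) (Fin 3) ℂ)
    (h : ∀ j : Fin L, site j A * site j B - site j B * site j A = Complex.I • site j C) :
    (site p A + site m A) * (site p B + site m B) - (site p B + site m B) * (site p A + site m A)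
      = Complex.I • (site p C + site m C) := by
  have h1 := h p
  have h2 := h m
  have c1 : site p A * site m B = site m B * site p A := site_comm hpm A B
  have c2 : site m A * site p B = site p B * site m A := site_comm hpm.symm A B
  calc (site p A + site m A) * (site p B + site m B)
        - (site p B + site m B) * (site p A + site m A)
      = (site p A * site p B - site p B * site p A) + (site m A * site m B - site m B * site m A)
        + (site p A * site m B - site m B * site p A)
        + (site m A * site p B - site p B * site m A) := by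
        simp only [add_mul, mul_add]; abel
    _ = Complex.I • (site p C + site m C) := by
        rw [h1, h2, c1, c2, sub_self, sub_self, add_zero, add_zero, smul_add]

lemma commute_sum {j p m : Fin L} (hp : p ≠ j) (hm : m ≠ j) (A B : Matrix (Fin 3) (Fin 3) ℂ) :
    Commute (site p A + site m A) (site j B) :=
  Commute.add_left (site_comm hp A B) (site_comm hm A B)

lemma twoSpins (hL : 3 ≤ L) (j : Fin L) :
    TwoSpins (site j Sx) (site j Sy) (site j Sz)
      (site (j + 1) Sx + site (j - 1) Sx) (site (j + 1) Sy + site (j - 1) Sy)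
      (site (j + 1) Sz + site (j - 1) Sz) where
  hxy := site_xy j
  hyz := site_yz j
  hzx := site_zx j
  hab := sum_comm_rel (succ_ne_pred hL j) Sx Sy Sz site_xy
  hbc := sum_comm_rel (succ_ne_pred hL j) Sy Sz Sx site_yz
  hca := sum_comm_rel (succ_ne_pred hL j) Sz Sx Sy site_zx
  xa := commute_sum (succ_ne hL j) (pred_ne hL j) _ _
  xb := commute_sum (succ_ne hL j) (pred_ne hL j) _ _
  xc := commute_sum (succ_ne hL j) (pred_ne hL j) _ _
  ya := commute_sum (succ_ne hL j) (pred_ne hL j) _ _
  yb := commute_sum (succ_ne hL j) (pred_ne hL j) _ _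
  yc := commute_sum (succ_ne hL j) (pred_ne hL j) _ _
  za := commute_sum (succ_ne hL j) (pred_ne hL j) _ _
  zb := commute_sum (succ_ne hL j) (pred_ne hL j) _ _
  zc := commute_sum (succ_ne hL j) (pred_ne hL j) _ _

/-- the two bonds touching `j` -/
lemma bonds_at (hL : 3 ≤ L) (j : Fin L) :
    bond L j + bond L (j - 1)
      = site j Sx * (site (j + 1) Sx + site (j - 1) Sx)
        + site j Sy * (site (j + 1) Sy + site (j - 1) Sy)
        + site j Sz * (site (j + 1) Sz + site (j - 1) Sz) := by
  unfold bond
  rw [sub_add_cancel, site_comm (pred_ne hL j) Sx Sx, site_comm (pred_ne hL j) Sy Sy,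
    site_comm (pred_ne hL j) Sz Sz]
  simp only [mul_add]
  abel

lemma bond_comm_site {k j : Fin L} (h1 : k ≠ j) (h2 : k + 1 ≠ j) (A : Matrix (Fin 3) (Fin 3) ℂ) :
    bond L k * site j A = site j A * bond L k := by
  have c : ∀ B : Matrix (Fin 3) (Fin 3) ℂ,
      site k B * site (k + 1) B * site j A = site j A * (site k B * site (k + 1) B) := by
    intro B
    rw [mul_assoc, site_comm h2 B A, ← mul_assoc, site_comm h1 B A, mul_assoc]
  unfold bond
  rw [add_mul, add_mul, mul_add, mul_add, c, c, c]

lemma heis_comm_site (hL : 3 ≤ L) (j : Fin L) (A : Matrix (Fin 3) (Fin 3) ℂ) :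
    heis L * site j A - site j A * heis L
      = (bond L j + bond L (j - 1)) * site j A - site j A * (bond L j + bond L (j - 1)) := by
  unfold heis
  rw [Finset.sum_mul, Finset.mul_sum, ← Finset.sum_sub_distrib]
  rw [Finset.sum_eq_add j (j - 1) (pred_ne hL j).symm]
  · rw [add_mul, mul_add]; abel
  · intro k _ hk
    rw [bond_comm_site hk.1 ?_ A, sub_self]
    intro h
    exact hk.2 (eq_sub_of_add_eq h)
  · intro h; exact absurd (Finset.mem_univ _) h
  · intro h; exact absurd (Finset.mem_univ _) h

lemma sum_bonds_at : ∑ j : Fin L, (bond L j + bond L (j - 1)) = (2 : ℂ) • heis L := by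
  rw [Finset.sum_add_distrib, two_smul]
  congr 1
  exact Equiv.sum_comp (Equiv.subRight (1 : Fin L)) (bond L)

lemma herm_site_x (j : Fin L) : (site j Sx)ᴴ = site j Sx := by rw [site_conjTranspose, herm_x]
lemma herm_site_y (j : Fin L) : (site j Sy)ᴴ = site j Sy := by rw [site_conjTranspose, herm_y]
lemma herm_site_z (j : Fin L) : (site j Sz)ᴴ = site j Sz := by rw [site_conjTranspose, herm_z]

lemma herm_mul_of_commute {n : Type*} [Fintype n] {P Q : Matrix n n ℂ} (hP : Pᴴ = P) (hQ : Qᴴ = Q)
    (h : Commute Q P) : (P * Q)ᴴ = P * Q := by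
  rw [Matrix.conjTranspose_mul, hP, hQ, h.eq]

lemma herm_bond (hL : 3 ≤ L) (j : Fin L) : (bond L j)ᴴ = bond L j := by
  unfold bond
  rw [Matrix.conjTranspose_add, Matrix.conjTranspose_add,
    herm_mul_of_commute (herm_site_x j) (herm_site_x _) (site_comm (succ_ne hL j) _ _),
    herm_mul_of_commute (herm_site_y j) (herm_site_y _) (site_comm (succ_ne hL j) _ _),
    herm_mul_of_commute (herm_site_z j) (herm_site_z _) (site_comm (succ_ne hL j) _ _)]

lemma herm_heis (hL : 3 ≤ L) : (heis L).IsHermitian := by
  unfold heis Matrix.IsHermitian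
  rw [Matrix.conjTranspose_sum]
  exact Finset.sum_congr rfl fun j _ => herm_bond hL j

end Vale.Agent.P348
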