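import Vale.Agent.P348.Spin

namespace Vale.Agent.P348

open Matrix

variable {L : ℕ}

lemma site_mulVec (j : Fin L) (A : Matrix (Fin 3) (Fin 3) ℂ) (φ : Conf L → ℂ) (σ : Conf L) :
    (site j A *ᵥ φ) σ = ∑ c : Fin 3, A (σ j) c * φ (Function.update σ j c) := by
  classical
  have himg : ∀ τ : Conf L, (∀ i, i ≠ j → σ i = τ i) ↔
      τ ∈ Finset.image (fun c => Function.update σ j c) Finset.univ := by
    intro τ
    constructor
    · intro h
      refine Finset.mem_image.mpr ⟨τ j, Finset.mem_univ _, ?_⟩
      funext i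
      by_cases hi : i = j
      · subst hi; simp
      · simp [Function.update_of_ne hi, h i hi]
    · intro h i hi
      obtain ⟨c, -, rfl⟩ := Finset.mem_image.mp h
      simp [Function.update_of_ne hi]
  have hinj : Function.Injective (fun c : Fin 3 => Function.update σ j c) := by
    intro c c' h
    have := congrFun h j
    simpa using this
  calc (site j A *ᵥ φ) σ
      = ∑ τ : Conf L, (if τ ∈ Finset.image (fun c => Function.update σ j c) Finset.univ
          then A (σ j) (τ j) * φ τ else 0) := by
        simp only [Matrix.mulVec, dotProduct, site, Matrix.of_apply]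
        refine Finset.sum_congr rfl fun τ _ => ?_
        by_cases h : ∀ i, i ≠ j → σ i = τ i
        · rw [if_pos h, if_pos ((himg τ).mp h)]
        · rw [if_neg h, if_neg (fun h' => h ((himg τ).mpr h')), zero_mul]
    _ = ∑ τ ∈ Finset.image (fun c => Function.update σ j c) Finset.univ, A (σ j) (τ j) * φ τ := by
        rw [Finset.sum_ite_mem, Finset.univ_inter]
    _ = ∑ c : Fin 3, A (σ j) c * φ (Function.update σ j c) := by
        rw [Finset.sum_image (fun x _ y _ h => hinj h)]
        simp

lemma ext_mulVec {M N : Matrix (Conf L) (Conf L) ℂ} (h : ∀ φ, M *ᵥ φ = N *ᵥ φ) : M = N :=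
  Matrix.ext_of_mulVec_single fun i => h _

lemma site_mul (j : Fin L) (A B : Matrix (Fin 3) (Fin 3) ℂ) :
    site j A * site j B = site j (A * B) := by
  apply ext_mulVec
  intro φ
  funext σ
  rw [← Matrix.mulVec_mulVec, site_mulVec, site_mulVec]
  simp only [site_mulVec, Function.update_self, Function.update_idem, Matrix.mul_apply,
    Finset.mul_sum, Finset.sum_mul]
  rw [Finset.sum_comm]
  refine Finset.sum_congr rfl fun c _ => Finset.sum_congr rfl fun c' _ => ?_
  ring

lemma site_comm {j k : Fin L} (hjk : j ≠ k) (A B : Matrix (Fin 3) (Fin 3) ℂ) :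
    site j A * site k B = site k B * site j A := by
  apply ext_mulVec
  intro φ
  funext σ
  rw [← Matrix.mulVec_mulVec, ← Matrix.mulVec_mulVec, site_mulVec, site_mulVec]
  simp only [site_mulVec, Function.update_of_ne hjk, Function.update_of_ne hjk.symm,
    Finset.mul_sum]
  rw [Finset.sum_comm]
  refine Finset.sum_congr rfl fun c _ => Finset.sum_congr rfl fun c' _ => ?_
  rw [Function.update_comm hjk]
  ring

lemma site_add (j : Fin L) (A B : Matrix (Fin 3) (Fin 3) ℂ) :
    site j (A + B) = site j A + site j B := by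
  ext σ τ
  simp only [site, Matrix.of_apply, Matrix.add_apply]
  split_ifs <;> simp

lemma site_sub (j : Fin L) (A B : Matrix (Fin 3) (Fin 3) ℂ) :
    site j (A - B) = site j A - site j B := by
  ext σ τ
  simp only [site, Matrix.of_apply, Matrix.sub_apply]
  split_ifs <;> simp

lemma site_smul (j : Fin L) (c : ℂ) (A : Matrix (Fin 3) (Fin 3) ℂ) :
    site j (c • A) = c • site j A := by
  ext σ τ
  simp only [site, Matrix.of_apply, Matrix.smul_apply]
  split_ifs <;> simp

lemma site_one (j : Fin L) : site j (1 : Matrix (Fin 3) (Fin 3) ℂ) = 1 := by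
  apply ext_mulVec
  intro φ
  funext σ
  rw [site_mulVec, Matrix.one_mulVec]
  simp [Matrix.one_apply]

lemma site_conjTranspose (j : Fin L) (A : Matrix (Fin 3) (Fin 3) ℂ) :
    (site j A)ᴴ = site j Aᴴ := by
  ext σ τ
  simp only [site, Matrix.of_apply, Matrix.conjTranspose_apply]
  by_cases h : ∀ i, i ≠ j → σ i = τ i
  · have h' : ∀ i, i ≠ j → τ i = σ i := fun i hi => (h i hi).symm
    rw [if_pos h, if_pos h']
  · have h' : ¬ ∀ i, i ≠ j → τ i = σ i := fun h' => h fun i hi => (h' i hi).symm
    rw [if_neg h, if_neg h', star_zero]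

end Vale.Agent.P348
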