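import Vale.Agent.P348.Defs

namespace Vale.Agent.P348

open Matrix

lemma sqrt2_mul : (Real.sqrt 2 : ℂ) * (Real.sqrt 2 : ℂ) = 2 := by
  rw [← Complex.ofReal_mul, Real.mul_self_sqrt (by norm_num)]; norm_num

lemma sqrt2_ne : (Real.sqrt 2 : ℂ) ≠ 0 := by
  intro h
  have := sqrt2_mul
  rw [h] at this
  norm_num at this

lemma inv_sq : ((1 : ℂ) / (Real.sqrt 2 : ℂ)) * ((1 : ℂ) / (Real.sqrt 2 : ℂ)) = 1 / 2 := by
  rw [div_mul_div_comm, sqrt2_mul]; norm_num

lemma comm_xy : Sx * Sy - Sy * Sx = Complex.I • Sz := by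
  have h := inv_sq
  unfold Sx Sy Sz
  rw [smul_mul_smul_comm, smul_mul_smul_comm, h]
  ext i j
  fin_cases i <;> fin_cases j <;>
    simp [Matrix.mul_apply, Fin.sum_univ_three] <;> ring

lemma comm_yz : Sy * Sz - Sz * Sy = Complex.I • Sx := by
  unfold Sx Sy Sz
  ext i j
  fin_cases i <;> fin_cases j <;>
    simp [Matrix.mul_apply, Fin.sum_univ_three] <;> ring_nf <;> simp

lemma comm_zx : Sz * Sx - Sx * Sz = Complex.I • Sy := by
  unfold Sx Sy Sz
  ext i j
  fin_cases i <;> fin_cases j <;>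
    simp [Matrix.mul_apply, Fin.sum_univ_three] <;> ring_nf <;> simp

lemma casimir : Sx * Sx + Sy * Sy + Sz * Sz = (2 : ℂ) • (1 : Matrix (Fin 3) (Fin 3) ℂ) := by
  have h := inv_sq
  unfold Sx Sy Sz
  rw [smul_mul_smul_comm, smul_mul_smul_comm, h]
  ext i j
  fin_cases i <;> fin_cases j <;>
    simp [Matrix.mul_apply, Fin.sum_univ_three] <;> norm_num

lemma herm_x : Sxᴴ = Sx := by
  unfold Sx
  ext i j
  fin_cases i <;> fin_cases j <;> simp [Matrix.conjTranspose_apply]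

lemma herm_y : Syᴴ = Sy := by
  unfold Sy
  ext i j
  fin_cases i <;> fin_cases j <;> simp [Matrix.conjTranspose_apply]

lemma herm_z : Szᴴ = Sz := by
  unfold Sz
  ext i j
  fin_cases i <;> fin_cases j <;> simp [Matrix.conjTranspose_apply]

end Vale.Agent.P348
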